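import Vale.Agent.P038.Defs

/-!
# The key lemma (note 22781 of helper424): left interiors and best responses
-/

namespace Vale.Agent.P038.H568

open Finset

variable {V : Type*} [Fintype V] [DecidableEq V]

/-- The closed neighbourhood of a set. -/
def nb (N : V → Finset V) (S : Finset V) : Finset V := S.biUnion N

/-- The left interior of a family of sets. -/
def lf (N : V → Finset V) (B : V → Finset V) (a : V) : Finset V :=
  univ.filter fun u => ∀ x, a ∈ N x → u ∈ B x

/-- The energy of a set. -/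
def F (N : V → Finset V) (l : ℚ) (S : Finset V) : ℚ := ((nb N S).card : ℚ) - l * (S.card : ℚ)

theorem mem_nb {N : V → Finset V} {S : Finset V} {u : V} : u ∈ nb N S ↔ ∃ x ∈ S, u ∈ N x := by
  simp [nb]

theorem mem_lf {N : V → Finset V} {B : V → Finset V} {a u : V} :
    u ∈ lf N B a ↔ ∀ x, a ∈ N x → u ∈ B x := by
  simp [lf]

theorem nb_mono {N : V → Finset V} {S T : Finset V} (h : S ⊆ T) : nb N S ⊆ nb N T := by
  intro u hu
  obtain ⟨x, hx, hu⟩ := mem_nb.1 hu
  exact mem_nb.2 ⟨x, h hx, hu⟩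

theorem nb_union {N : V → Finset V} (S T : Finset V) : nb N (S ∪ T) = nb N S ∪ nb N T := by
  ext u
  simp only [mem_nb, mem_union]
  constructor
  · rintro ⟨x, hx | hx, hu⟩
    · exact Or.inl ⟨x, hx, hu⟩
    · exact Or.inr ⟨x, hx, hu⟩
  · rintro (⟨x, hx, hu⟩ | ⟨x, hx, hu⟩)
    · exact ⟨x, Or.inl hx, hu⟩
    · exact ⟨x, Or.inr hx, hu⟩

theorem F_submod (N : V → Finset V) (l : ℚ) (S T : Finset V) :
    F N l (S ∪ T) + F N l (S ∩ T) ≤ F N l S + F N l T := by
  have h1 : (nb N (S ∪ T)).card + (nb N (S ∩ T)).card ≤ (nb N S).card + (nb N T).card := by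
    rw [nb_union, ← card_union_add_card_inter (nb N S) (nb N T)]
    have h2 : nb N (S ∩ T) ⊆ nb N S ∩ nb N T :=
      subset_inter (nb_mono inter_subset_left) (nb_mono inter_subset_right)
    have := card_le_card h2
    omega
  have h3 : (S ∪ T).card + (S ∩ T).card = S.card + T.card := card_union_add_card_inter S T
  have h1' : ((nb N (S ∪ T)).card : ℚ) + ((nb N (S ∩ T)).card : ℚ)
      ≤ ((nb N S).card : ℚ) + ((nb N T).card : ℚ) := by exact_mod_cast h1
  have h3' : ((S ∪ T).card : ℚ) + ((S ∩ T).card : ℚ) = (S.card : ℚ) + (T.card : ℚ) := by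
    exact_mod_cast h3
  unfold F
  have h4 : l * ((S ∪ T).card : ℚ) + l * ((S ∩ T).card : ℚ) = l * (S.card : ℚ) + l * (T.card : ℚ) := by
    rw [← mul_add, ← mul_add, h3']
  linarith

theorem F_inter_le {N : V → Finset V} {l : ℚ} {B U : V → Finset V} (hBU : ∀ a, B a ⊆ U a)
    (hR : ∀ a P, B a ⊆ P → P ⊆ U a → F N l (B a) ≤ F N l P) (Z : Finset V) (s : Finset V)
    (hZ : ∀ x ∈ s, Z ⊆ U x) : F N l (Z.filter fun u => ∀ x ∈ s, u ∈ B x) ≤ F N l Z := by
  induction s using Finset.induction_on with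
  | empty => simp
  | insert x s hx ih =>
    have ih' := ih fun y hy => hZ y (mem_insert_of_mem hy)
    set Z' := Z.filter fun u => ∀ x ∈ s, u ∈ B x with hZ'
    have hsub : Z' ⊆ U x := (filter_subset _ _).trans (hZ x (mem_insert_self x s))
    have h1 := F_submod N l Z' (B x)
    have h2 := hR x (Z' ∪ B x) subset_union_right (union_subset hsub (hBU x))
    have h3 : (Z.filter fun u => ∀ y ∈ insert x s, u ∈ B y) = Z' ∩ B x := by
      ext u
      simp only [hZ', mem_filter, mem_inter, mem_insert, forall_eq_or_imp]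
      tauto
    rw [h3]
    linarith

theorem lf_mono {N : V → Finset V} {B Y : V → Finset V} (h : ∀ a, B a ⊆ Y a) (a : V) :
    lf N B a ⊆ lf N Y a := by
  intro u hu
  rw [mem_lf] at hu ⊢
  exact fun x hx => h x (hu x hx)

theorem F_lf_le {N : V → Finset V} {l : ℚ} {B Y U : V → Finset V}
    (hBY : ∀ a, B a ⊆ Y a) (hYU : ∀ a, Y a ⊆ U a)
    (hR : ∀ a P, B a ⊆ P → P ⊆ U a → F N l (B a) ≤ F N l P) (a : V) :
    F N l (lf N B a) ≤ F N l (lf N Y a) := by
  have h := F_inter_le (N := N) (l := l) (B := B) (U := U) (fun a => (hBY a).trans (hYU a)) hR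
    (lf N Y a) (univ.filter fun x => a ∈ N x) (by
      intro x hx u hu
      exact hYU x (mem_lf.1 hu x (mem_filter.1 hx).2))
  have e : ((lf N Y a).filter fun u => ∀ x ∈ univ.filter (fun x => a ∈ N x), u ∈ B x)
      = lf N B a := by
    ext u
    simp only [mem_filter, mem_univ, true_and, mem_lf]
    constructor
    · rintro ⟨-, h⟩
      exact h
    · intro h
      exact ⟨fun x hx => hBY x (h x hx), h⟩
  rw [e] at h
  exact h

theorem sum_F (N : V → Finset V) (l : ℚ) (B : V → Finset V) :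
    ∑ a, F N l (B a) = ∑ a, ((nb N (B a)).card : ℚ) - l * ∑ a, ((B a).card : ℚ) := by
  unfold F
  rw [Finset.sum_sub_distrib, Finset.mul_sum]

/-- The key lemma. -/
theorem key (N : V → Finset V) (U : V → Finset V) : ∀ (k : ℕ) (B : V → Finset V) (l : ℚ),
    ∑ a, (U a \ B a).card = k → (∀ a, B a ⊆ U a) →
    (∀ a P, B a ⊆ P → P ⊆ U a → F N l (B a) ≤ F N l P) →
    (∀ Y : V → Finset V, (∀ a, B a ⊆ Y a) → (∀ a, Y a ⊆ U a) →
      ∑ a, ((U a).card : ℚ) - ∑ a, ((Y a).card : ℚ)
        ≤ ∑ a, ((lf N U a).card : ℚ) - ∑ a, ((lf N Y a).card : ℚ)) →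
    ∑ a, F N l (U a) - ∑ a, F N l (B a)
      ≤ ∑ a, F N l (lf N U a) - ∑ a, F N l (lf N B a) := by
  intro k
  induction k using Nat.strong_induction_on with
  | _ k ih =>
  intro B l hk hBU hR hC
  by_cases hUB : ∀ a, U a ⊆ B a
  · have e : B = U := funext fun a => subset_antisymm (hBU a) (hUB a)
    subst e
    simp
  · push Not at hUB
    obtain ⟨a0, ha0⟩ := hUB
    -- the minimal ratio
    let s : Finset (V × Finset V) := univ.filter fun q => B q.1 ⊆ q.2 ∧ ¬ q.2 ⊆ B q.1 ∧ q.2 ⊆ U q.1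
    let f : V × Finset V → ℚ := fun q =>
      (((nb N q.2).card : ℚ) - ((nb N (B q.1)).card : ℚ)) / ((q.2.card : ℚ) - ((B q.1).card : ℚ))
    have hs : s.Nonempty := ⟨(a0, U a0), by
      simp only [s, mem_filter, mem_univ, true_and]
      exact ⟨hBU a0, ha0, subset_rfl⟩⟩
    obtain ⟨q0, hq0, hmin⟩ := exists_min_image s f hs
    have hq0' : B q0.1 ⊆ q0.2 ∧ ¬ q0.2 ⊆ B q0.1 ∧ q0.2 ⊆ U q0.1 := by
      simpa only [s, mem_filter, mem_univ, true_and] using hq0
    have hpos : ∀ q : V × Finset V, B q.1 ⊆ q.2 → ¬ q.2 ⊆ B q.1 →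
        (0 : ℚ) < (q.2.card : ℚ) - ((B q.1).card : ℚ) := by
      intro q h1 h2
      have : (B q.1).card < q.2.card := card_lt_card ⟨h1, h2⟩
      have : ((B q.1).card : ℚ) < (q.2.card : ℚ) := by exact_mod_cast this
      linarith
    set l' := f q0 with hl'
    have hp0 := hpos q0 hq0'.1 hq0'.2.1
    -- equality at the minimiser
    have heq : F N l' q0.2 = F N l' (B q0.1) := by
      have : l' * ((q0.2.card : ℚ) - ((B q0.1).card : ℚ))
          = ((nb N q0.2).card : ℚ) - ((nb N (B q0.1)).card : ℚ) := by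
        rw [hl']
        exact div_mul_cancel₀ _ hp0.ne'
      unfold F
      rw [mul_sub] at this
      linarith
    -- l ≤ l'
    have hll : l ≤ l' := by
      rw [hl', le_div_iff₀ hp0]
      have := hR q0.1 q0.2 hq0'.1 hq0'.2.2
      unfold F at this
      rw [mul_sub]
      linarith
    -- row conditions for l'
    have hR' : ∀ a P, B a ⊆ P → P ⊆ U a → F N l' (B a) ≤ F N l' P := by
      intro a P h1 h2
      by_cases h3 : P ⊆ B a
      · rw [subset_antisymm h1 h3]
      · have h4 : (a, P) ∈ s := by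
          simp only [s, mem_filter, mem_univ, true_and]
          exact ⟨h1, h3, h2⟩
        have h5 : l' ≤ f (a, P) := hmin _ h4
        have h6 := hpos (a, P) h1 h3
        have h7 : l' * ((P.card : ℚ) - ((B a).card : ℚ))
            ≤ ((nb N P).card : ℚ) - ((nb N (B a)).card : ℚ) := (le_div_iff₀ h6).1 h5
        unfold F
        rw [mul_sub] at h7
        linarith
    -- the new family
    let Y : V → Finset V := Function.update B q0.1 q0.2
    have hYa : Y q0.1 = q0.2 := Function.update_self _ _ _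
    have hYb : ∀ b, b ≠ q0.1 → Y b = B b := fun b hb => Function.update_of_ne hb _ _
    have hBY : ∀ a, B a ⊆ Y a := by
      intro a
      by_cases h : a = q0.1
      · rw [h, hYa]
        exact hq0'.1
      · rw [hYb a h]
    have hYU : ∀ a, Y a ⊆ U a := by
      intro a
      by_cases h : a = q0.1
      · rw [h, hYa]
        exact hq0'.2.2
      · rw [hYb a h]
        exact hBU a
    have hFY : ∀ a, F N l' (Y a) = F N l' (B a) := by
      intro a
      by_cases h : a = q0.1
      · rw [h, hYa]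
        exact heq
      · rw [hYb a h]
    have hRY : ∀ a P, Y a ⊆ P → P ⊆ U a → F N l' (Y a) ≤ F N l' P := by
      intro a P h1 h2
      rw [hFY a]
      exact hR' a P ((hBY a).trans h1) h2
    have hlt : ∑ a, (U a \ Y a).card < k := by
      rw [← hk]
      apply sum_lt_sum
      · intro a _
        exact card_le_card (sdiff_subset_sdiff subset_rfl (hBY a))
      · refine ⟨q0.1, mem_univ _, card_lt_card ?_⟩
        rw [hYa]
        refine ⟨sdiff_subset_sdiff subset_rfl hq0'.1, fun h => hq0'.2.1 ?_⟩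
        intro u hu
        by_contra hub
        have := h (mem_sdiff.2 ⟨hq0'.2.2 hu, hub⟩)
        exact (mem_sdiff.1 this).2 hu
    have hI := ih _ hlt Y l' rfl hYU hRY fun W h1 h2 => hC W (fun a => (hBY a).trans (h1 a)) h2
    have hstar : ∑ a, F N l' (lf N B a) ≤ ∑ a, F N l' (lf N Y a) :=
      sum_le_sum fun a _ => F_lf_le hBY hYU hR' a
    have hYB : ∑ a, F N l' (Y a) = ∑ a, F N l' (B a) := sum_congr rfl fun a _ => hFY a
    have hCB := hC B (fun a => subset_rfl) hBU
    rw [sum_F, sum_F, sum_F, sum_F]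
    rw [hYB] at hI
    rw [sum_F, sum_F] at hI
    rw [sum_F] at hstar
    rw [sum_F N l' (fun a => lf N U a)] at hI
    rw [sum_F N l' (fun a => lf N Y a)] at hI hstar
    nlinarith [mul_le_mul_of_nonneg_left hCB (sub_nonneg.2 hll)]

end Vale.Agent.P038.H568
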