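import Vale.Agent.P038.H568.Two

/-!
# Seymour's second neighbourhood conjecture

The growth condition for all sets in a counterexample with the fewest arcs (helper294, note 20944),
and the conclusion.
-/

namespace Vale.Agent.P038.H568

open Finset

variable {V : Type*} [Fintype V] [DecidableEq V]

/-- Closed out-neighbourhoods of a counterexample. -/
def CE (N : V → Finset V) : Prop :=
  (∀ x, x ∈ N x) ∧ (∀ a b, b ∈ N a → a ∈ N b → a = b) ∧
    ∀ v, (nb N (N v)).card + 1 < 2 * (N v).card

theorem growth {N : V → Finset V} (hN : CE N)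
    (hmin : ∀ N' : V → Finset V, CE N' → ∑ v, (N v).card ≤ ∑ v, (N' v).card)
    (X : Finset V) (hX : nb N X ≠ X) : F N 1 (nb N X) < F N 1 X := by
  obtain ⟨h0, hanti, hce⟩ := hN
  by_contra hcon
  have hXsub : X ⊆ nb N X := fun x hx => mem_nb.2 ⟨x, hx, h0 x⟩
  set L := nb N X \ X with hL
  have hLne : L.Nonempty := by
    rw [nonempty_iff_ne_empty]
    intro h
    exact hX (subset_antisymm (sdiff_eq_empty_iff_subset.1 h) hXsub)
  have hcX : (nb N X).card = X.card + L.card := by
    rw [hL, card_sdiff_of_subset hXsub]
    have := card_le_card hXsub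
    omega
  have hcXX : (nb N (nb N X)).card = X.card + (nb N L \ X).card := by
    have e : nb N (nb N X) = X ∪ (nb N L \ X) := by
      ext u
      simp only [mem_union, mem_sdiff]
      constructor
      · intro hu
        obtain ⟨x, hx, hux⟩ := mem_nb.1 hu
        by_cases huX : u ∈ X
        · exact Or.inl huX
        · refine Or.inr ⟨?_, huX⟩
          by_cases hxX : x ∈ X
          · have : u ∈ L := mem_sdiff.2 ⟨mem_nb.2 ⟨x, hxX, hux⟩, huX⟩
            exact mem_nb.2 ⟨u, this, h0 u⟩
          · exact mem_nb.2 ⟨x, mem_sdiff.2 ⟨hx, hxX⟩, hux⟩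
      · rintro (hu | ⟨hu, -⟩)
        · exact mem_nb.2 ⟨u, hXsub hu, h0 u⟩
        · exact nb_mono sdiff_subset hu
    rw [e, card_union_of_disjoint disjoint_sdiff]
  have hdL : 2 * L.card ≤ (nb N L \ X).card := by
    have h1 : F N 1 X ≤ F N 1 (nb N X) := not_lt.1 hcon
    unfold F at h1
    have h2 : ((nb N (nb N X)).card : ℚ) = (X.card : ℚ) + ((nb N L \ X).card : ℚ) := by
      exact_mod_cast hcXX
    have h3 : ((nb N X).card : ℚ) = (X.card : ℚ) + (L.card : ℚ) := by exact_mod_cast hcX
    have h4 : 2 * (L.card : ℚ) ≤ ((nb N L \ X).card : ℚ) := by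
      rw [h2, h3] at h1
      linarith
    exact_mod_cast h4
  -- the minimiser among the proper subsets
  let d : Finset V → ℤ := fun T => ((nb N T \ X).card : ℤ) - 2 * (T.card : ℤ)
  obtain ⟨T, hT, hTmin⟩ := exists_min_image L.ssubsets d
    ⟨∅, mem_ssubsets.2 (empty_ssubset.2 hLne)⟩
  rw [mem_ssubsets] at hT
  have hd0 : d T ≤ 0 := by
    have := hTmin ∅ (mem_ssubsets.2 (empty_ssubset.2 hLne))
    simpa [d, nb] using this
  have hdT : ∀ T', T' ⊆ L → d T ≤ d T' := by
    intro T' hT'
    by_cases h : T' = L
    · rw [h]
      have h2 : (0 : ℤ) ≤ d L := by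
        simp only [d]
        have h3 := hdL
        zify at h3
        linarith
      linarith
    · exact hTmin T' (mem_ssubsets.2 (_root_.ssubset_iff_subset_ne.2 ⟨hT', h⟩))
  -- the new graph
  let N' : V → Finset V := fun y => if y ∈ X then N y ∩ (X ∪ T) else N y
  have hN'sub : ∀ y, N' y ⊆ N y := by
    intro y
    by_cases hy : y ∈ X
    · simp only [N', if_pos hy]
      exact inter_subset_left
    · simp only [N', if_neg hy]
      exact subset_rfl
  have hCE' : CE N' := by
    refine ⟨?_, ?_, ?_⟩
    · intro x
      by_cases hx : x ∈ X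
      · simp only [N', if_pos hx]
        exact mem_inter.2 ⟨h0 x, mem_union_left _ hx⟩
      · simp only [N', if_neg hx]
        exact h0 x
    · intro a b hb ha
      exact hanti a b (hN'sub a hb) (hN'sub b ha)
    · intro v
      by_cases hv : v ∈ X
      · set Dv := N v \ (X ∪ T) with hDv
        set Ev := nb N Dv \ (nb N T ∪ X) with hEv
        have hN'v : N' v = N v \ Dv := by
          simp only [N', if_pos hv, hDv]
          ext u
          simp only [mem_inter, mem_sdiff, mem_union]
          tauto
        have hDsub : Dv ⊆ N v := sdiff_subset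
        have hDL : Dv ⊆ L := by
          intro u hu
          rw [hDv, mem_sdiff, mem_union] at hu
          push Not at hu
          exact mem_sdiff.2 ⟨mem_nb.2 ⟨v, hv, hu.1⟩, hu.2.1⟩
        have hDT : Disjoint T Dv := by
          rw [disjoint_left]
          intro u hu hu'
          rw [hDv, mem_sdiff, mem_union] at hu'
          exact hu'.2 (Or.inr hu)
        have hE : 2 * Dv.card ≤ Ev.card := by
          have h1 := hdT (T ∪ Dv) (union_subset hT.subset hDL)
          have h2 : (nb N (T ∪ Dv) \ X).card = (nb N T \ X).card + Ev.card := by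
            have e : nb N (T ∪ Dv) \ X = (nb N T \ X) ∪ Ev := by
              rw [nb_union, hEv]
              ext u
              simp only [mem_union, mem_sdiff]
              tauto
            rw [e, card_union_of_disjoint]
            rw [disjoint_left]
            intro u hu hu'
            rw [hEv, mem_sdiff, mem_union] at hu'
            exact hu'.2 (Or.inl (mem_sdiff.1 hu).1)
          have h3 : (T ∪ Dv).card = T.card + Dv.card := card_union_of_disjoint hDT
          simp only [d] at h1
          rw [h2, h3] at h1
          push_cast at h1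
          have : (2 : ℤ) * (Dv.card : ℤ) ≤ (Ev.card : ℤ) := by linarith
          exact_mod_cast this
        have hEsub : Ev ⊆ nb N (N v) := fun u hu => nb_mono hDsub (mem_sdiff.1 hu).1
        have hnb : nb N' (N' v) ⊆ nb N (N v) \ Ev := by
          intro u hu
          obtain ⟨x, hx, hux⟩ := mem_nb.1 hu
          have hxN : x ∈ N v := hN'sub v hx
          have hxXT : x ∈ X ∪ T := by
            simp only [N', if_pos hv] at hx
            exact (mem_inter.1 hx).2
          refine mem_sdiff.2 ⟨mem_nb.2 ⟨x, hxN, hN'sub x hux⟩, ?_⟩
          intro huE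
          rw [hEv, mem_sdiff, mem_union] at huE
          refine huE.2 ?_
          by_cases hxX : x ∈ X
          · simp only [N', if_pos hxX] at hux
            rcases mem_union.1 (mem_inter.1 hux).2 with h | h
            · exact Or.inr h
            · exact Or.inl (mem_nb.2 ⟨u, h, h0 u⟩)
          · have hxT : x ∈ T := (mem_union.1 hxXT).resolve_left hxX
            exact Or.inl (mem_nb.2 ⟨x, hxT, hN'sub x hux⟩)
        have h1 := card_le_card hnb
        rw [card_sdiff_of_subset hEsub] at h1
        have h2 : (N' v).card = (N v).card - Dv.card := by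
          rw [hN'v, card_sdiff_of_subset hDsub]
        have h3 := card_le_card hDsub
        have h4 := card_le_card hEsub
        have h5 := hce v
        omega
      · have e : N' v = N v := by simp only [N', if_neg hv]
        rw [e]
        have h1 : (nb N' (N v)).card ≤ (nb N (N v)).card := by
          apply card_le_card
          intro u hu
          obtain ⟨x, hx, hux⟩ := mem_nb.1 hu
          exact mem_nb.2 ⟨x, hx, hN'sub x hux⟩
        have h2 := hce v
        omega
  have h5 := hmin N' hCE'
  obtain ⟨l, hl, hlT⟩ := exists_of_ssubset hT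
  obtain ⟨hlX, hlX'⟩ := mem_sdiff.1 hl
  obtain ⟨y, hy, hly⟩ := mem_nb.1 hlX
  have h6 : ∑ v, (N' v).card < ∑ v, (N v).card := by
    apply sum_lt_sum
    · exact fun v _ => card_le_card (hN'sub v)
    · refine ⟨y, mem_univ y, card_lt_card ⟨hN'sub y, fun h => ?_⟩⟩
      have h7 := h hly
      simp only [N', if_pos hy] at h7
      rcases mem_union.1 (mem_inter.1 h7).2 with h8 | h8
      · exact hlX' h8
      · exact hlT h8
  omega

/-- There is no counterexample. -/
theorem no_CE [Nonempty V] (N : V → Finset V) (hN : CE N) : False := by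
  classical
  let s : Finset (V → Finset V) := univ.filter fun N => CE N
  obtain ⟨M, hM, hmin⟩ := exists_min_image s (fun N => ∑ v, (N v).card)
    ⟨N, by simpa only [s, mem_filter, mem_univ, true_and] using hN⟩
  have hM' : CE M := by simpa only [s, mem_filter, mem_univ, true_and] using hM
  refine no_growth hM'.1 hM'.2.1 ?_ fun S hS => growth hM' (fun N' hN' => hmin N' (by
    simpa only [s, mem_filter, mem_univ, true_and] using hN')) S hS
  intro a
  by_contra h
  push Not at h
  have h1 : M a = {a} := by
    ext b
    rw [mem_singleton]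
    exact ⟨fun hb => h b hb, fun hb => hb ▸ hM'.1 a⟩
  have h2 := hM'.2.2 a
  have h3 : nb M {a} = M a := by simp [nb]
  rw [h1, h3, h1, card_singleton] at h2
  omega

end Vale.Agent.P038.H568

namespace Vale.Agent.P038.H568

open Finset

/-- Seymour's second neighbourhood conjecture. -/
theorem seymour {V : Type*} [Fintype V] [Nonempty V] (D : OGraph V) :
    ∃ v, (N1 D v).card ≤ (N2 D v).card := by
  classical
  by_contra hcon
  push Not at hcon
  refine no_CE (fun v => insert v (N1 D v)) ⟨fun x => mem_insert_self x _, ?_, ?_⟩
  · intro a b hb ha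
    rw [mem_insert, mem_N1] at hb ha
    rcases hb with hb | hb
    · exact hb.symm
    · rcases ha with ha | ha
      · exact ha
      · exact absurd ha (D.asymm a b hb)
  · intro v
    have h1 : (insert v (N1 D v)).card = (N1 D v).card + 1 := by
      rw [card_insert_of_notMem]
      rw [mem_N1]
      exact D.loopless v
    have e : nb (fun v => insert v (N1 D v)) (insert v (N1 D v)) = insert v (N1 D v) ∪ N2 D v := by
      ext x
      simp only [mem_nb, mem_union, mem_insert, mem_N1, mem_N2]
      constructor
      · rintro ⟨u, hu | hu, hx | hx⟩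
        · exact Or.inl (Or.inl (hx.trans hu))
        · subst hu
          exact Or.inl (Or.inr hx)
        · subst hx
          exact Or.inl (Or.inr hu)
        · by_cases hxv : x = v
          · exact Or.inl (Or.inl hxv)
          · by_cases hvx : D.arc v x
            · exact Or.inl (Or.inr hvx)
            · exact Or.inr ⟨hxv, hvx, u, hu, hx⟩
      · rintro ((hx | hx) | ⟨-, -, u, hu, hx⟩)
        · exact ⟨v, Or.inl rfl, Or.inl hx⟩
        · exact ⟨v, Or.inl rfl, Or.inr hx⟩
        · exact ⟨u, Or.inr hu, Or.inr hx⟩
    have hdis : Disjoint (insert v (N1 D v)) (N2 D v) := by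
      rw [disjoint_left]
      intro x hx hx'
      rw [mem_insert, mem_N1] at hx
      rw [mem_N2] at hx'
      rcases hx with hx | hx
      · exact hx'.1 hx
      · exact hx'.2.1 hx
    show (nb (fun v => insert v (N1 D v)) (insert v (N1 D v))).card + 1
      < 2 * (insert v (N1 D v)).card
    rw [e, card_union_of_disjoint hdis, h1]
    have := hcon v
    omega

end Vale.Agent.P038.H568
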