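import Vale.Agent.P038.H568.Key

/-!
# The two minimisation problems (note 22781 of helper424)
-/

namespace Vale.Agent.P038.H568

open Finset

variable {V : Type*} [Fintype V] [DecidableEq V]

/-- Outer pairs of families. -/
def Outer (N B C : V → Finset V) : Prop :=
  (∀ a, N a ⊆ B a) ∧ (∀ a, N a ⊆ C a) ∧ ∀ a b, b ∈ B a → a ∈ C b → a = b

/-- Inner pairs of families. -/
def Inner (N X Y : V → Finset V) : Prop :=
  (∀ a, a ∈ X a) ∧ (∀ a, a ∈ Y a) ∧ ∀ a b, b ∈ nb N (X a) → a ∈ nb N (Y b) → a = b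

/-- The cost of a pair of families. -/
def cost (N B C : V → Finset V) : ℚ := ∑ a, F N 1 (B a) + ∑ a, F N 1 (C a)

/-- The complementary family. -/
def Uof (C : V → Finset V) (a : V) : Finset V := univ.filter fun b => b = a ∨ a ∉ C b

theorem mem_Uof {C : V → Finset V} {a b : V} : b ∈ Uof C a ↔ b = a ∨ a ∉ C b := by
  simp [Uof]

theorem count {C D : V → Finset V} (h1 : ∀ a, a ∈ C a) (h2 : ∀ a, a ∈ D a)
    (h3 : ∀ a b, a ≠ b → (b ∈ D a ↔ a ∉ C b)) :
    ∑ b, ((C b).card : ℚ) + ∑ a, ((D a).card : ℚ)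
      = (Fintype.card V : ℚ) * (Fintype.card V : ℚ) + (Fintype.card V : ℚ) := by
  have hc : ∀ b, ((C b).card : ℚ) = ∑ a, if a ∈ C b then (1 : ℚ) else 0 := by
    intro b
    simp
  have hd : ∀ a, ((D a).card : ℚ) = ∑ b, if b ∈ D a then (1 : ℚ) else 0 := by
    intro a
    simp
  have e1 : ∑ b, ((C b).card : ℚ) = ∑ a, ∑ b, if a ∈ C b then (1 : ℚ) else 0 := by
    rw [Finset.sum_comm]
    exact sum_congr rfl fun b _ => hc b
  have e2 : ∑ a, ((D a).card : ℚ) = ∑ a, ∑ b, if b ∈ D a then (1 : ℚ) else 0 :=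
    sum_congr rfl fun a _ => hd a
  rw [e1, e2, ← sum_add_distrib]
  have e3 : ∀ a : V, (∑ b, if a ∈ C b then (1 : ℚ) else 0) + (∑ b, if b ∈ D a then (1 : ℚ) else 0)
      = (Fintype.card V : ℚ) + 1 := by
    intro a
    rw [← sum_add_distrib]
    have e4 : ∀ b : V, ((if a ∈ C b then (1 : ℚ) else 0) + if b ∈ D a then (1 : ℚ) else 0)
        = 1 + if b = a then (1 : ℚ) else 0 := by
      intro b
      by_cases hab : b = a
      · subst hab
        simp [h1 b, h2 b]
      · have := h3 a b (Ne.symm hab)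
        by_cases hm : a ∈ C b
        · have : b ∉ D a := fun h => (this.1 h) hm
          simp [hm, this, hab]
        · have : b ∈ D a := this.2 hm
          simp [hm, this, hab]
    rw [sum_congr rfl fun b _ => e4 b, sum_add_distrib]
    simp
  rw [sum_congr rfl fun a _ => e3 a]
  simp

theorem sum_F_one (N : V → Finset V) (B : V → Finset V) :
    ∑ a, F N 1 (B a) = ∑ a, ((nb N (B a)).card : ℚ) - ∑ a, ((B a).card : ℚ) := by
  rw [sum_F, one_mul]

theorem cost_C {N B C : V → Finset V} (h0 : ∀ x, x ∈ N x) (h : Outer N B C) :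
    ∑ b, F N 1 (C b) = ∑ a, ((Uof C a).card : ℚ) - ∑ a, ((lf N (Uof C) a).card : ℚ) := by
  obtain ⟨hB, hC, hd⟩ := h
  have c1 := count (C := C) (D := Uof C) (fun a => hC a (h0 a)) (fun a => mem_Uof.2 (Or.inl rfl))
    (fun a b hab => by
      rw [mem_Uof]
      exact ⟨fun h => h.resolve_left (Ne.symm hab), Or.inr⟩)
  have c2 := count (C := fun b => nb N (C b)) (D := lf N (Uof C))
    (fun a => mem_nb.2 ⟨a, hC a (h0 a), h0 a⟩)
    (fun a => by
      rw [mem_lf]
      intro x hx
      rw [mem_Uof]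
      by_cases hxa : x ∈ C a
      · exact Or.inl (hd x a (hB x hx) hxa).symm
      · exact Or.inr hxa)
    (fun a b hab => by
      rw [mem_lf]
      constructor
      · intro h hm
        obtain ⟨x, hx, hax⟩ := mem_nb.1 hm
        rcases mem_Uof.1 (h x hax) with h1 | h1
        · subst h1
          rcases mem_Uof.1 (h a (h0 a)) with h2 | h2
          · exact hab h2.symm
          · exact h2 (hC b hax)
        · exact h1 hx
      · intro h x hx
        rw [mem_Uof]
        exact Or.inr fun hxb => h (mem_nb.2 ⟨x, hxb, hx⟩))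
  rw [sum_F_one]
  linarith

theorem exists_outer_min (N : V → Finset V) (hanti : ∀ a b, b ∈ N a → a ∈ N b → a = b) :
    ∃ B C, Outer N B C ∧ ∀ B' C', Outer N B' C' → cost N B C ≤ cost N B' C' := by
  classical
  let s : Finset ((V → Finset V) × (V → Finset V)) := univ.filter fun q => Outer N q.1 q.2
  have hs : s.Nonempty := ⟨(N, N), by
    simp only [s, mem_filter, mem_univ, true_and]
    exact ⟨fun a => subset_rfl, fun a => subset_rfl, hanti⟩⟩
  obtain ⟨q, hq, hmin⟩ := exists_min_image s (fun q => cost N q.1 q.2) hs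
  refine ⟨q.1, q.2, by simpa only [s, mem_filter, mem_univ, true_and] using hq, ?_⟩
  intro B' C' h
  exact hmin (B', C') (by simpa only [s, mem_filter, mem_univ, true_and] using h)

theorem Uof_sup {N B C : V → Finset V} (h : Outer N B C) (a : V) : B a ⊆ Uof C a := by
  intro b hb
  rw [mem_Uof]
  by_cases hm : a ∈ C b
  · exact Or.inl (h.2.2 a b hb hm).symm
  · exact Or.inr hm

theorem row_opt {N B C : V → Finset V} (h : Outer N B C)
    (hmin : ∀ B' C', Outer N B' C' → cost N B C ≤ cost N B' C') (a : V) (P : Finset V)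
    (h1 : B a ⊆ P) (h2 : P ⊆ Uof C a) : F N 1 (B a) ≤ F N 1 P := by
  have hO : Outer N (Function.update B a P) C := by
    refine ⟨?_, h.2.1, ?_⟩
    · intro x
      by_cases hx : x = a
      · subst hx
        rw [Function.update_self]
        exact (h.1 x).trans h1
      · rw [Function.update_of_ne hx]
        exact h.1 x
    · intro x b hb hxb
      by_cases hx : x = a
      · subst hx
        rw [Function.update_self] at hb
        rcases mem_Uof.1 (h2 hb) with h3 | h3
        · exact h3.symm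
        · exact absurd hxb h3
      · rw [Function.update_of_ne hx] at hb
        exact h.2.2 x b hb hxb
  have h3 := hmin _ _ hO
  unfold cost at h3
  have h4 : ∑ x, F N 1 (Function.update B a P x) - ∑ x, F N 1 (B x) = F N 1 P - F N 1 (B a) := by
    rw [← sum_sub_distrib]
    rw [Finset.sum_eq_single a]
    · rw [Function.update_self]
    · intro x _ hx
      rw [Function.update_of_ne hx, sub_self]
    · intro hx
      exact absurd (mem_univ a) hx
  linarith

theorem col_opt {N B C : V → Finset V} (h0 : ∀ x, x ∈ N x) (h : Outer N B C)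
    (hmin : ∀ B' C', Outer N B' C' → cost N B C ≤ cost N B' C') (Y : V → Finset V)
    (h1 : ∀ a, B a ⊆ Y a) (h2 : ∀ a, Y a ⊆ Uof C a) :
    ∑ a, ((Uof C a).card : ℚ) - ∑ a, ((Y a).card : ℚ)
      ≤ ∑ a, ((lf N (Uof C) a).card : ℚ) - ∑ a, ((lf N Y a).card : ℚ) := by
  let C' : V → Finset V := fun b => univ.filter fun a => a = b ∨ b ∉ Y a
  have hmem : ∀ a b, a ∈ C' b ↔ a = b ∨ b ∉ Y a := by
    intro a b
    simp [C']
  have hO : Outer N B C' := by
    refine ⟨h.1, ?_, ?_⟩
    · intro b a ha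
      rw [hmem]
      by_cases hb : b ∈ Y a
      · rcases mem_Uof.1 (h2 a hb) with h3 | h3
        · exact Or.inl h3.symm
        · exact absurd (h.2.1 b ha) h3
      · exact Or.inr hb
    · intro a b hb hab
      rcases (hmem a b).1 hab with h3 | h3
      · exact h3
      · exact absurd (h1 a hb) h3
  have hU : Uof C' = Y := by
    funext a
    ext b
    rw [mem_Uof, hmem]
    constructor
    · rintro (h3 | h3)
      · subst h3
        exact h1 b (h.1 b (h0 b))
      · push Not at h3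
        exact h3.2
    · intro h3
      by_cases hab : b = a
      · exact Or.inl hab
      · refine Or.inr ?_
        push Not
        exact ⟨Ne.symm hab, h3⟩
  have e1 := cost_C h0 h
  have e2 := cost_C h0 hO
  rw [hU] at e2
  have h3 := hmin _ _ hO
  unfold cost at h3
  linarith

theorem inner_of_outer {N B C : V → Finset V} (h0 : ∀ x, x ∈ N x) (h : Outer N B C) :
    Inner N (lf N B) (lf N C) := by
  obtain ⟨hB, hC, hd⟩ := h
  refine ⟨?_, ?_, ?_⟩
  · intro a
    rw [mem_lf]
    exact fun x hx => hB x hx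
  · intro a
    rw [mem_lf]
    exact fun x hx => hC x hx
  · intro a b hb ha
    obtain ⟨x, hx, hbx⟩ := mem_nb.1 hb
    obtain ⟨y, hy, hay⟩ := mem_nb.1 ha
    rw [mem_lf] at hx hy
    have h1 : x ∈ B y := hx y hay
    have h2 : y ∈ C x := hy x hbx
    have h3 : y = x := hd y x h1 h2
    subst h3
    have h4 : y ∈ B a := hx a (h0 a)
    have h5 : a = y := hd a y h4 (hC y hay)
    have h6 : y ∈ C b := hy b (h0 b)
    have h7 : y = b := hd y b (hB y hbx) h6
    exact h5.trans h7

theorem cost_Y {N B C : V → Finset V} (h0 : ∀ x, x ∈ N x) (h : Outer N B C) :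
    ∑ b, F N 1 (lf N C b)
      ≤ ∑ a, ((nb N (Uof C a)).card : ℚ) - ∑ a, ((nb N (lf N (Uof C) a)).card : ℚ) := by
  obtain ⟨hB, hC, hd⟩ := h
  have hYa : ∀ a, a ∈ lf N C a := by
    intro a
    rw [mem_lf]
    exact fun x hx => hC x hx
  have c1 := count (C := lf N C) (D := fun a => nb N (Uof C a)) hYa
    (fun a => mem_nb.2 ⟨a, mem_Uof.2 (Or.inl rfl), h0 a⟩)
    (fun a b hab => by
      constructor
      · intro hm hl
        obtain ⟨x, hx, hbx⟩ := mem_nb.1 hm
        rw [mem_lf] at hl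
        rcases mem_Uof.1 hx with h1 | h1
        · subst h1
          exact hab (hd x b (hB x hbx) (hl b (h0 b)))
        · exact h1 (hl x hbx)
      · intro hl
        rw [mem_lf] at hl
        push Not at hl
        obtain ⟨y, hy, hay⟩ := hl
        exact mem_nb.2 ⟨y, mem_Uof.2 (Or.inr hay), hy⟩)
  have c2 := count (C := fun b => nb N (lf N C b)) (D := Uof fun b => nb N (lf N C b))
    (fun a => mem_nb.2 ⟨a, hYa a, h0 a⟩) (fun a => mem_Uof.2 (Or.inl rfl))
    (fun a b hab => by
      rw [mem_Uof]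
      exact ⟨fun h => h.resolve_left (Ne.symm hab), Or.inr⟩)
  have hsub : ∀ a, nb N (lf N (Uof C) a) ⊆ Uof (fun b => nb N (lf N C b)) a := by
    intro a u hu
    obtain ⟨z, hz, huz⟩ := mem_nb.1 hu
    rw [mem_lf] at hz
    rw [mem_Uof]
    by_cases hua : u = a
    · exact Or.inl hua
    · refine Or.inr fun hm => ?_
      obtain ⟨x, hx, hax⟩ := mem_nb.1 hm
      rw [mem_lf] at hx
      have h1 : x ∈ C z := hx z huz
      rcases mem_Uof.1 (hz x hax) with h2 | h2
      · subst h2
        rcases mem_Uof.1 (hz a (h0 a)) with h3 | h3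
        · subst h3
          exact hua (hd z u (hB z huz) (hx u (h0 u))).symm
        · exact h3 (hC z hax)
      · exact h2 h1
  have h4 : ∑ a, ((nb N (lf N (Uof C) a)).card : ℚ)
      ≤ ∑ a, ((Uof (fun b => nb N (lf N C b)) a).card : ℚ) :=
    sum_le_sum fun a _ => by exact_mod_cast card_le_card (hsub a)
  rw [sum_F_one]
  linarith

/-- The comparison of the two minimisation problems. -/
theorem m12 {N : V → Finset V} (h0 : ∀ x, x ∈ N x) (hanti : ∀ a b, b ∈ N a → a ∈ N b → a = b) :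
    ∃ X Y, Inner N X Y ∧ ∀ B C, Outer N B C → cost N X Y ≤ cost N B C := by
  obtain ⟨B, C, hO, hmin⟩ := exists_outer_min N hanti
  refine ⟨lf N B, lf N C, inner_of_outer h0 hO, ?_⟩
  intro B' C' h'
  refine le_trans ?_ (hmin B' C' h')
  have hk := key N (Uof C) _ B 1 rfl (Uof_sup hO) (fun a P h1 h2 => row_opt hO hmin a P h1 h2)
    (fun Y h1 h2 => col_opt h0 hO hmin Y h1 h2)
  have h1 := cost_Y h0 hO
  have h2 := cost_C h0 hO
  unfold cost
  rw [sum_F_one N (fun a => Uof C a), sum_F_one N (fun a => lf N (Uof C) a)] at hk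
  linarith

theorem outer_of_inner {N X Y : V → Finset V} (h : Inner N X Y) :
    Outer N (fun a => nb N (X a)) fun a => nb N (Y a) :=
  ⟨fun a _ hu => mem_nb.2 ⟨a, h.1 a, hu⟩, fun a _ hu => mem_nb.2 ⟨a, h.2.1 a, hu⟩, h.2.2⟩

/-- There is no oriented graph without sinks which satisfies the growth condition for all sets. -/
theorem no_growth [Nonempty V] {N : V → Finset V} (h0 : ∀ x, x ∈ N x)
    (hanti : ∀ a b, b ∈ N a → a ∈ N b → a = b) (hsink : ∀ a, ∃ b ∈ N a, b ≠ a)
    (hG : ∀ S, nb N S ≠ S → F N 1 (nb N S) < F N 1 S) : False := by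
  obtain ⟨X, Y, hI, hmin⟩ := m12 h0 hanti
  have h1 := hmin _ _ (outer_of_inner hI)
  have hle : ∀ S, F N 1 (nb N S) ≤ F N 1 S := by
    intro S
    by_cases h : nb N S = S
    · rw [h]
    · exact (hG S h).le
  unfold cost at h1
  have hX : ∀ a, nb N (X a) = X a := by
    by_contra hne
    push Not at hne
    obtain ⟨a, ha⟩ := hne
    have h2 : ∑ a, F N 1 (nb N (X a)) < ∑ a, F N 1 (X a) :=
      sum_lt_sum (fun x _ => hle _) ⟨a, mem_univ a, hG _ ha⟩
    have h3 : ∑ a, F N 1 (nb N (Y a)) ≤ ∑ a, F N 1 (Y a) := sum_le_sum fun x _ => hle _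
    linarith
  have hY : ∀ a, nb N (Y a) = Y a := by
    by_contra hne
    push Not at hne
    obtain ⟨a, ha⟩ := hne
    have h2 : ∑ a, F N 1 (nb N (Y a)) < ∑ a, F N 1 (Y a) :=
      sum_lt_sum (fun x _ => hle _) ⟨a, mem_univ a, hG _ ha⟩
    have h3 : ∑ a, F N 1 (nb N (X a)) ≤ ∑ a, F N 1 (X a) := sum_le_sum fun x _ => hle _
    linarith
  -- a minimal nonempty closed set
  let s : Finset (Finset V) := univ.filter fun K => K.Nonempty ∧ nb N K ⊆ K
  have hs : s.Nonempty := ⟨univ, by
    simp only [s, mem_filter, mem_univ, true_and]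
    exact ⟨univ_nonempty, subset_univ _⟩⟩
  obtain ⟨K, hK, hKmin⟩ := exists_min_image s Finset.card hs
  have hK' : K.Nonempty ∧ nb N K ⊆ K := by
    simpa only [s, mem_filter, mem_univ, true_and] using hK
  have hclosed : ∀ T : Finset V, nb N T = T → ∀ a ∈ K, a ∈ T → K ⊆ T := by
    intro T hT a ha haT
    have hm : K ∩ T ∈ s := by
      simp only [s, mem_filter, mem_univ, true_and]
      refine ⟨⟨a, mem_inter.2 ⟨ha, haT⟩⟩, ?_⟩
      intro u hu
      obtain ⟨x, hx, hux⟩ := mem_nb.1 hu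
      rw [mem_inter] at hx ⊢
      refine ⟨hK'.2 (mem_nb.2 ⟨x, hx.1, hux⟩), ?_⟩
      rw [← hT]
      exact mem_nb.2 ⟨x, hx.2, hux⟩
    have h2 := hKmin _ hm
    have h3 : K ∩ T = K := eq_of_subset_of_card_le inter_subset_left h2
    exact inter_eq_left.1 h3
  obtain ⟨a, ha⟩ := hK'.1
  obtain ⟨b, hb, hba⟩ := hsink a
  have hbK : b ∈ K := hK'.2 (mem_nb.2 ⟨a, ha, hb⟩)
  have h5 : b ∈ X a := hclosed (X a) (hX a) a ha (hI.1 a) hbK
  have h6 : a ∈ Y b := hclosed (Y b) (hY b) b hbK (hI.2.1 b) ha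
  exact hba (hI.2.2 a b (mem_nb.2 ⟨b, h5, h0 b⟩) (mem_nb.2 ⟨a, h6, h0 a⟩)).symm

end Vale.Agent.P038.H568
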